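import Mathlib

/-!
# Loops of colours: the count behind `cr(K_n) = Z(n)` for `n` even

At every vertex `b` of `K_n` (`n = 2p`) there is a cyclic word of colours, one colour for every gap
of the rotation at `b`; `P b k` is the colour of the gap after the arm `k`, `M b k` the colour of
the gap before the arm `k`.
-/

namespace Vale.Agent.P040.H252

open Finset

variable {V : Type*} [Fintype V] [DecidableEq V]

/-- `1` if the loop of `b` changes its colour at the arm `k` -/
def flp (P M : V → V → Bool) (b k : V) : ℤ := if b ≠ k ∧ P b k ≠ M b k then 1 else 0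

/-- number of coincidences of the two comparisons of the pair `b, k` -/
def coi (P M : V → V → Bool) (b k : V) : ℤ :=
  if b ≠ k then (if P b k = P k b then 1 else 0) + (if M b k = M k b then 1 else 0) else 0

omit [Fintype V] in
theorem sq_count (C : Finset V) (c : V → Bool) :
    (2 : ℤ) * ∑ b ∈ C, ∑ k ∈ C, (if b ≠ k ∧ c b = c k then (1:ℤ) else 0) ≥
      (C.card : ℤ) * C.card + (C.card : ℤ) % 2 - 2 * C.card := by
  classical
  set A := C.filter (fun b => c b = true) with hA
  set B := C.filter (fun b => c b = false) with hB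
  have hAB : (A.card : ℤ) + B.card = C.card := by
    have h1 : B = C.filter (fun b => ¬ c b = true) := by
      rw [hB]; ext b; simp
    rw [h1, hA]
    exact_mod_cast Finset.card_filter_add_card_filter_not (s := C) (fun b => c b = true)
  have hin : ∀ b ∈ C, ∑ k ∈ C, (if b ≠ k ∧ c b = c k then (1:ℤ) else 0) =
      (if c b = true then (A.card : ℤ) else B.card) - 1 := by
    intro b hb
    have h1 : ∑ k ∈ C, (if b ≠ k ∧ c b = c k then (1:ℤ) else 0) =
        ∑ k ∈ C, ((if c b = c k then (1:ℤ) else 0) - (if k = b then 1 else 0)) := by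
      apply Finset.sum_congr rfl
      intro k _
      by_cases h : b = k
      · subst h; simp
      · have h' : ¬ k = b := fun h2 => h h2.symm
        simp [h, h']
    rw [h1, Finset.sum_sub_distrib, Finset.sum_ite_eq' C b (fun _ => (1:ℤ)), if_pos hb]
    congr 1
    rw [← Finset.sum_filter]
    rw [Finset.sum_const, nsmul_eq_mul, mul_one]
    cases hcb : c b
    · simp only [Bool.false_eq_true, if_false]
      congr 2
      rw [hB]
      apply Finset.filter_congr
      intro k _
      exact eq_comm
    · simp only [if_true]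
      congr 2
      rw [hA]
      apply Finset.filter_congr
      intro k _
      exact eq_comm
  rw [Finset.sum_congr rfl hin, Finset.sum_sub_distrib, Finset.sum_ite]
  simp only [Finset.sum_const, nsmul_eq_mul, mul_one]
  have h2 : (C.filter (fun x => ¬ c x = true)) = B := by
    rw [hB]; ext b; simp
  rw [h2, ← hA, ← hAB]
  generalize (A.card : ℤ) = a at *
  generalize (B.card : ℤ) = d at *
  have h3 : (a - d) ^ 2 ≥ (a + d) % 2 := by
    rcases Int.even_or_odd (a + d) with h | h
    · rw [Int.even_iff.1 h]; exact sq_nonneg _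
    · rw [Int.odd_iff.1 h]
      have h4 : a - d ≠ 0 := by
        intro h5
        have h6 : a = d := by linarith
        subst h6
        have := Int.odd_iff.1 h
        omega
      have : 0 < (a - d) ^ 2 := by positivity
      omega
  nlinarith

/-- **The loop count.** -/
theorem loop_count {p : ℕ} (hp : 1 ≤ p) (hV : Fintype.card V = 2 * p) (P M : V → V → Bool)
    (heven : ∀ b, Even (∑ k, flp P M b k))
    (hconst : ∀ b, (∀ k, flp P M b k = 0) → ∃ c : Bool, ∀ k, k ≠ b → P b k = c ∧ M b k = c)
    (hne : ∃ b k, flp P M b k = 1) :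
    4 * ((p : ℤ) * (p - 1) + 1) ≤
      ∑ b, ∑ k, coi P M b k + 2 * ((p : ℤ) - 1) * ∑ b, ∑ k, flp P M b k := by
  classical
  have hflp01 : ∀ b k, flp P M b k = 0 ∨ flp P M b k = 1 := by
    intro b k; unfold flp; split_ifs <;> simp
  have hflp0 : ∀ b k, 0 ≤ flp P M b k := by
    intro b k; rcases hflp01 b k with h | h <;> rw [h]; norm_num
  set C : Finset V := univ.filter (fun b => ∀ k, flp P M b k = 0) with hC
  set J : Finset V := univ.filter (fun b => ¬ ∀ k, flp P M b k = 0) with hJ
  have hCJ : (C.card : ℤ) + J.card = 2 * p := by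
    have := Finset.card_filter_add_card_filter_not (s := (univ : Finset V))
      (fun b => ∀ k, flp P M b k = 0)
    rw [card_univ, hV] at this
    exact_mod_cast this
  -- colours of the constant loops
  have hc' : ∀ b, ∃ c : Bool, b ∈ C → ∀ k, k ≠ b → P b k = c ∧ M b k = c := by
    intro b
    by_cases hb : b ∈ C
    · obtain ⟨c, hc⟩ := hconst b (mem_filter.1 hb).2
      exact ⟨c, fun _ => hc⟩
    · exact ⟨true, fun h => absurd h hb⟩
  choose c hc using hc'
  -- every nonconstant loop has at least two flips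
  have htwo : ∀ b ∈ J, 2 ≤ ∑ k, flp P M b k := by
    intro b hb
    have h1 := (mem_filter.1 hb).2
    push Not at h1
    obtain ⟨k, hk⟩ := h1
    have h2 : flp P M b k = 1 := (hflp01 b k).resolve_left hk
    have h3 : flp P M b k ≤ ∑ k, flp P M b k :=
      Finset.single_le_sum (fun i _ => hflp0 b i) (mem_univ k)
    obtain ⟨r, hr⟩ := heven b
    omega
  have hF : 2 * (J.card : ℤ) ≤ ∑ b, ∑ k, flp P M b k := by
    calc 2 * (J.card : ℤ) = ∑ b ∈ J, 2 := by simp [mul_comm]
      _ ≤ ∑ b ∈ J, ∑ k, flp P M b k := Finset.sum_le_sum htwo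
      _ ≤ ∑ b, ∑ k, flp P M b k :=
        Finset.sum_le_sum_of_subset_of_nonneg (Finset.subset_univ _)
          fun b _ _ => Finset.sum_nonneg fun k _ => hflp0 b k
  have hJ1 : 1 ≤ (J.card : ℤ) := by
    obtain ⟨b, k, hbk⟩ := hne
    have : b ∈ J := by
      rw [hJ, mem_filter]
      refine ⟨mem_univ _, fun h => ?_⟩
      rw [h k] at hbk
      exact absurd hbk (by norm_num)
    exact_mod_cast Finset.card_pos.2 ⟨b, this⟩
  -- mutual flips
  set mu : ℤ := ∑ b, ∑ k, flp P M b k * flp P M k b with hmut
  have hmutle : mu ≤ (J.card : ℤ) * (J.card - 1) := by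
    have h1 : ∀ b k, flp P M b k * flp P M k b ≤
        (if b ∈ J ∧ k ∈ J then (1:ℤ) else 0) - (if b ∈ J ∧ b = k then 1 else 0) := by
      intro b k
      by_cases hbk : b = k
      · subst hbk
        have h0 : flp P M b b = 0 := by unfold flp; simp
        rw [h0]
        by_cases hb : b ∈ J <;> simp [hb]
      · have e1 : ∀ x y, flp P M x y = 1 → x ∈ J := by
          intro x y hxy
          rw [hJ, mem_filter]
          refine ⟨mem_univ _, fun h => ?_⟩
          rw [h y] at hxy
          exact absurd hxy (by norm_num)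
        rcases hflp01 b k with h | h
        · rw [h]
          simp only [hbk, and_false, if_false, sub_zero, zero_mul]
          split_ifs <;> norm_num
        · rcases hflp01 k b with h' | h'
          · rw [h']
            simp only [hbk, and_false, if_false, sub_zero, mul_zero]
            split_ifs <;> norm_num
          · rw [h, h', if_pos ⟨e1 _ _ h, e1 _ _ h'⟩]
            simp [hbk]
    calc mu ≤ ∑ b, ∑ k, ((if b ∈ J ∧ k ∈ J then (1:ℤ) else 0) -
          (if b ∈ J ∧ b = k then 1 else 0)) :=
          Finset.sum_le_sum fun b _ => Finset.sum_le_sum fun k _ => h1 b k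
      _ = (J.card : ℤ) * (J.card - 1) := by
          simp_rw [Finset.sum_sub_distrib]
          have h2 : ∑ b : V, ∑ k : V, (if b ∈ J ∧ k ∈ J then (1:ℤ) else 0) =
              (J.card : ℤ) * J.card := by
            have : ∀ b : V, ∑ k : V, (if b ∈ J ∧ k ∈ J then (1:ℤ) else 0) =
                if b ∈ J then (J.card : ℤ) else 0 := by
              intro b
              by_cases hb : b ∈ J <;> simp [hb]
            rw [Finset.sum_congr rfl fun b _ => this b, Finset.sum_ite_mem]
            simp
          have h3 : ∑ b : V, ∑ k : V, (if b ∈ J ∧ b = k then (1:ℤ) else 0) = J.card := by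
            have : ∀ b : V, ∑ k : V, (if b ∈ J ∧ b = k then (1:ℤ) else 0) =
                if b ∈ J then (1:ℤ) else 0 := by
              intro b
              by_cases hb : b ∈ J <;> simp [hb]
            rw [Finset.sum_congr rfl fun b _ => this b, Finset.sum_ite_mem]
            simp
          rw [h2, h3]; ring
  -- the pointwise lower bound
  have hpt : ∀ b k, (if b ∈ C ∧ k ∈ C ∧ b ≠ k ∧ c b = c k then (2:ℤ) else 0) +
      flp P M b k * (1 - flp P M k b) + flp P M k b * (1 - flp P M b k) ≤ coi P M b k := by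
    intro b k
    by_cases hbk : b = k
    · subst hbk
      have h0 : flp P M b b = 0 := by unfold flp; simp
      rw [h0]
      unfold coi
      simp
    · have hcoi : coi P M b k = (if P b k = P k b then (1:ℤ) else 0) +
          (if M b k = M k b then 1 else 0) := by
        unfold coi; rw [if_pos hbk]
      have hkb : k ≠ b := fun h => hbk h.symm
      have hC0 : ∀ x y, x ∈ C → flp P M x y = 0 := fun x y hx => (mem_filter.1 hx).2 y
      by_cases h1 : b ∈ C ∧ k ∈ C ∧ b ≠ k ∧ c b = c k
      · rw [if_pos h1, hC0 b k h1.1, hC0 k b h1.2.1, hcoi]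
        have e1 := hc b h1.1 k hkb
        have e2 := hc k h1.2.1 b hbk
        rw [e1.1, e1.2, e2.1, e2.2, h1.2.2.2]
        simp
      · rw [if_neg h1, hcoi]
        have f1 : flp P M b k = if P b k ≠ M b k then 1 else 0 := by
          unfold flp; simp [hbk]
        have f2 : flp P M k b = if P k b ≠ M k b then 1 else 0 := by
          unfold flp; simp [hkb]
        rw [f1, f2]
        cases P b k <;> cases M b k <;> cases P k b <;> cases M k b <;> simp
  have hsum : 2 * ∑ b ∈ C, ∑ k ∈ C, (if b ≠ k ∧ c b = c k then (1:ℤ) else 0) +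
      2 * (∑ b, ∑ k, flp P M b k - mu) ≤ ∑ b, ∑ k, coi P M b k := by
    have h1 : ∑ b, ∑ k, ((if b ∈ C ∧ k ∈ C ∧ b ≠ k ∧ c b = c k then (2:ℤ) else 0) +
      flp P M b k * (1 - flp P M k b) + flp P M k b * (1 - flp P M b k)) ≤
        ∑ b, ∑ k, coi P M b k :=
      Finset.sum_le_sum fun b _ => Finset.sum_le_sum fun k _ => hpt b k
    refine le_trans (le_of_eq ?_) h1
    simp_rw [Finset.sum_add_distrib]
    have e1 : ∑ b : V, ∑ k : V, (if b ∈ C ∧ k ∈ C ∧ b ≠ k ∧ c b = c k then (2:ℤ) else 0) =
        2 * ∑ b ∈ C, ∑ k ∈ C, (if b ≠ k ∧ c b = c k then (1:ℤ) else 0) := by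
      rw [Finset.mul_sum]
      rw [← Finset.sum_filter_add_sum_filter_not univ (fun b => b ∈ C)
        (fun b => ∑ k : V, (if b ∈ C ∧ k ∈ C ∧ b ≠ k ∧ c b = c k then (2:ℤ) else 0))]
      have z : ∑ b ∈ univ.filter (fun b => ¬ b ∈ C),
          ∑ k : V, (if b ∈ C ∧ k ∈ C ∧ b ≠ k ∧ c b = c k then (2:ℤ) else 0) = 0 := by
        apply Finset.sum_eq_zero
        intro b hb
        have hb' := (mem_filter.1 hb).2
        apply Finset.sum_eq_zero
        intro k _
        rw [if_neg (fun h => hb' h.1)]
      rw [z, add_zero]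
      have hfC : univ.filter (fun b => b ∈ C) = C := by ext b; simp
      rw [hfC]
      apply Finset.sum_congr rfl
      intro b hb
      rw [Finset.mul_sum]
      rw [← Finset.sum_filter_add_sum_filter_not univ (fun k => k ∈ C)
        (fun k => (if b ∈ C ∧ k ∈ C ∧ b ≠ k ∧ c b = c k then (2:ℤ) else 0))]
      have z2 : ∑ k ∈ univ.filter (fun k => ¬ k ∈ C),
          (if b ∈ C ∧ k ∈ C ∧ b ≠ k ∧ c b = c k then (2:ℤ) else 0) = 0 := by
        apply Finset.sum_eq_zero
        intro k hk
        have hk' := (mem_filter.1 hk).2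
        rw [if_neg (fun h => hk' h.2.1)]
      rw [z2, add_zero, hfC]
      apply Finset.sum_congr rfl
      intro k hk
      by_cases h : b ≠ k ∧ c b = c k
      · rw [if_pos ⟨hb, hk, h.1, h.2⟩, if_pos h]; norm_num
      · rw [if_neg h, if_neg (fun h' => h ⟨h'.2.2.1, h'.2.2.2⟩)]; norm_num
    have e2 : ∑ b : V, ∑ k : V, flp P M b k * (1 - flp P M k b) =
        ∑ b, ∑ k, flp P M b k - mu := by
      rw [hmut, ← Finset.sum_sub_distrib]
      apply Finset.sum_congr rfl
      intro b _
      rw [← Finset.sum_sub_distrib]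
      apply Finset.sum_congr rfl
      intro k _
      ring
    have e3 : ∑ b : V, ∑ k : V, flp P M k b * (1 - flp P M b k) =
        ∑ b, ∑ k, flp P M b k - mu := by
      rw [Finset.sum_comm]
      exact e2
    rw [e1, e2, e3]
    ring
  have hsq := sq_count C c
  have hmut0 : 0 ≤ ∑ b, ∑ k, flp P M b k - mu := by
    rw [hmut, ← Finset.sum_sub_distrib]
    apply Finset.sum_nonneg
    intro b _
    rw [← Finset.sum_sub_distrib]
    apply Finset.sum_nonneg
    intro k _
    rcases hflp01 b k with h | h <;> rcases hflp01 k b with h' | h' <;> rw [h, h'] <;> norm_num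
  have hCc : (C.card : ℤ) = 2 * p - J.card := by linarith
  rw [hCc] at hsq
  generalize ∑ b, ∑ k, flp P M b k = F at *
  generalize ∑ b, ∑ k, coi P M b k = S at *
  generalize ∑ b ∈ C, ∑ k ∈ C, (if b ≠ k ∧ c b = c k then (1:ℤ) else 0) = Q at *
  have hp' : (1 : ℤ) ≤ p := by exact_mod_cast hp
  generalize (p : ℤ) = q at *
  generalize (J.card : ℤ) = r at *
  rcases (by omega : r = 1 ∨ r = 2 ∨ r = 3 ∨ 4 ≤ r) with h | h | h | h
  · subst h
    have h4 : (2 * q - 1) % 2 = 1 := by omega
    rw [h4] at hsq
    nlinarith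
  · subst h
    have h4 : (2 * q - 2) % 2 = 0 := by omega
    rw [h4] at hsq
    nlinarith
  · subst h
    have h4 : (2 * q - 3) % 2 = 1 := by omega
    rw [h4] at hsq
    nlinarith
  · have h4 : 0 ≤ (2 * q - r) % 2 := by omega
    nlinarith

/-- for a colouring of the gaps of a cyclic order the number of changes is even, and if there is
no change the colouring is constant -/
theorem loop_word (ρ : Equiv.Perm V) (b : V) (hρ : ρ b = b)
    (hcyc : ∀ k k', k ≠ b → k' ≠ b → ρ.SameCycle k k') (P M : V → V → Bool)
    (hPM : ∀ k, k ≠ b → P b k = M b (ρ k)) :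
    Even (∑ k, flp P M b k) ∧
      ((∀ k, flp P M b k = 0) → ∃ c : Bool, ∀ k, k ≠ b → P b k = c ∧ M b k = c) := by
  classical
  constructor
  · -- parity
    let m : V → ℤ := fun k => if k ≠ b ∧ M b k = true then 1 else 0
    have h1 : ∀ k, flp P M b k % 2 = (m (ρ k) + m k) % 2 := by
      intro k
      by_cases hk : k = b
      · subst hk
        simp [flp, m, hρ]
      · have hρk : ρ k ≠ b := fun h => hk (ρ.injective (h.trans hρ.symm))
        have hkb : b ≠ k := fun h => hk h.symm
        simp only [flp, m, hk, hρk, hkb, ne_eq, not_false_eq_true, true_and, hPM k hk]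
        cases M b (ρ k) <;> cases M b k <;> simp
    have h2 : (∑ k, flp P M b k) % 2 = (∑ k, (m (ρ k) + m k)) % 2 := by
      rw [Finset.sum_int_mod, Finset.sum_congr rfl fun k _ => h1 k, ← Finset.sum_int_mod]
    have h3 : ∑ k, (m (ρ k) + m k) = 2 * ∑ k, m k := by
      rw [Finset.sum_add_distrib, Equiv.sum_comp ρ m]; ring
    rw [Int.even_iff, h2, h3]
    omega
  · intro h0
    by_cases hex : ∃ k0, k0 ≠ b
    · obtain ⟨k0, hk0⟩ := hex
      have hstep : ∀ k, k ≠ b → P b k = M b k := by
        intro k hk
        have := h0 k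
        unfold flp at this
        by_contra hne
        rw [if_pos ⟨fun h => hk h.symm, hne⟩] at this
        exact absurd this (by norm_num)
      have hnat : ∀ i : ℕ, (ρ ^ i) k0 ≠ b ∧ M b ((ρ ^ i) k0) = M b k0 := by
        intro i
        induction i with
        | zero => simpa using hk0
        | succ i ih =>
          rw [pow_succ', Equiv.Perm.mul_apply]
          refine ⟨fun h => ih.1 (ρ.injective (h.trans hρ.symm)), ?_⟩
          rw [← hPM _ ih.1, hstep _ ih.1, ih.2]
      refine ⟨M b k0, fun k hk => ?_⟩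
      obtain ⟨i, hi⟩ := (hcyc k0 k hk0 hk).exists_nat_pow_eq
      have h1 := (hnat i).2
      rw [hi] at h1
      exact ⟨(hstep k hk).trans h1, h1⟩
    · push Not at hex
      exact ⟨true, fun k hk => absurd (hex k) hk⟩

end Vale.Agent.P040.H252
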