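import Vale.Agent.P040.H45.Static
import Vale.Agent.P040.H252.Loop

/-!
# From potentials on the own-leaf loops to the Harary-Hill number, `n = 2p`

`P z b k`, `M z b k` : the potential `F_z` of the star at `b` with its own leaf in the gap after,
before the arm `k`; all potentials are read modulo `p - 1`.
-/

namespace Vale.Agent.P040.H252

open Finset MeasureTheory H45

variable {V : Type*} [Fintype V] [DecidableEq V]

/-- the Boolean colour -/
noncomputable def bcol (a t : ℝ) : Bool := decide (Even (col a t))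

theorem bcol_add_int (a t : ℝ) (q : ℤ) : bcol (a + q) t = bcol a t := by
  unfold bcol
  have : col (a + q) t = col a t + 2 * q := by
    unfold col
    rw [show 2 * (a + (q : ℝ) - t) = 2 * (a - t) + ((2 * q : ℤ) : ℝ) by push_cast; ring,
      Int.floor_add_intCast]
  rw [this]
  congr 1
  rw [Int.even_add]
  simp

theorem bcol_ne_le {a c t : ℝ} (h : bcol a t ≠ bcol c t) :
    1 ≤ |((col a t : ℤ) : ℝ) - ((col c t : ℤ) : ℝ)| := by
  have hne : col a t - col c t ≠ 0 := by
    intro h0
    apply h
    unfold bcol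
    rw [show col a t = col c t by linarith]
  have h7 : 1 ≤ |col a t - col c t| := Int.one_le_abs hne
  exact_mod_cast h7

theorem bcol_eq_le {a c t : ℝ} (q : ℤ) (h : bcol a t = bcol c t) :
    1 ≤ |((col a t : ℤ) : ℝ) - ((col (c + 1 / 2 + q) t : ℤ) : ℝ)| := by
  apply bcol_ne_le
  rw [bcol_add_int]
  intro h1
  rw [h] at h1
  unfold bcol at h1
  have : col (c + 1 / 2) t = col c t + 1 := by
    unfold col
    rw [show 2 * (c + 1 / 2 - t) = 2 * (c - t) + ((1 : ℤ) : ℝ) by push_cast; ring,
      Int.floor_add_intCast]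
  rw [this] at h1
  have h2 := decide_eq_decide.1 h1
  rw [Int.even_add_one] at h2
  tauto

/-- two points of the same colour differ, up to an integer, by less than one half -/
theorem bcol_eq_dist {a c t : ℝ} (h : bcol a t = bcol c t) :
    ∃ m : ℤ, |a - c - m| < 1 / 2 := by
  unfold bcol at h
  have h2 := decide_eq_decide.1 h
  have h3 : Even (col a t - col c t) := by
    rw [Int.even_sub]; exact h2
  obtain ⟨m, hm⟩ := h3
  refine ⟨m, ?_⟩
  unfold col at hm
  have ha := Int.floor_le (2 * (a - t))
  have ha' := Int.lt_floor_add_one (2 * (a - t))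
  have hc := Int.floor_le (2 * (c - t))
  have hc' := Int.lt_floor_add_one (2 * (c - t))
  have hm' : ((⌊2 * (a - t)⌋ : ℤ) : ℝ) - ((⌊2 * (c - t)⌋ : ℤ) : ℝ) = 2 * m := by
    have : ((⌊2 * (a - t)⌋ - ⌊2 * (c - t)⌋ : ℤ) : ℝ) = ((m + m : ℤ) : ℝ) := by rw [hm]
    push_cast at this
    linarith
  rw [abs_lt]
  constructor <;> linarith

/-- **Forced flip.** If the increments `d k`, all at most `1/2` in absolute value, of a function on
the gaps of a cyclic order do not add up to `0`, the gaps do not all have the same colour. -/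
theorem forced (ρ : Equiv.Perm V) (b : V) (hρ : ρ b = b) (m d : V → ℝ)
    (hd : ∀ k, k ≠ b → |d k| ≤ 1 / 2)
    (hm : ∀ k, k ≠ b → ∃ q : ℤ, m (ρ k) = m k + d k + q)
    (hW : ∑ k ∈ univ.filter (fun k => k ≠ b), d k ≠ 0) (t : ℝ) :
    ∃ k, k ≠ b ∧ bcol (m (ρ k)) t ≠ bcol (m k) t := by
  classical
  by_contra hcon
  push Not at hcon
  -- reduced representatives
  let y : V → ℝ := fun k => if k ≠ b then
    (if bcol (m k) t = true then Int.fract (m k - t) else Int.fract (m k - t - 1 / 2)) else 0
  apply hW
  have key : ∀ k, k ≠ b → d k = y (ρ k) - y k := by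
    intro k hk
    have hρk : ρ k ≠ b := fun h => hk (ρ.injective (h.trans hρ.symm))
    have hcol := hcon k hk
    obtain ⟨q, hq⟩ := hm k hk
    -- bounds: fract in [0,1/2)
    have hfr : ∀ x : ℝ, (bcol x t = true → Int.fract (x - t) < 1 / 2) ∧
        (bcol x t = false → Int.fract (x - t - 1 / 2) < 1 / 2) := by
      intro x
      constructor
      · intro h
        unfold bcol at h
        have h1 := of_decide_eq_true h
        obtain ⟨j, hj⟩ := h1
        unfold col at hj
        have e1 := Int.floor_le (2 * (x - t))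
        have e2 := Int.lt_floor_add_one (2 * (x - t))
        rw [hj] at e1 e2
        push_cast at e1 e2
        have : ⌊x - t⌋ = j := by
          rw [Int.floor_eq_iff]
          constructor <;> linarith
        rw [Int.fract, this]
        linarith
      · intro h
        unfold bcol at h
        have h1 := of_decide_eq_false h
        rw [Int.not_even_iff_odd] at h1
        obtain ⟨j, hj⟩ := h1
        unfold col at hj
        have e1 := Int.floor_le (2 * (x - t))
        have e2 := Int.lt_floor_add_one (2 * (x - t))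
        rw [hj] at e1 e2
        push_cast at e1 e2
        have : ⌊x - t - 1 / 2⌋ = j := by
          rw [Int.floor_eq_iff]
          constructor <;> linarith
        rw [Int.fract, this]
        linarith
    have hyb : ∀ k, k ≠ b → 0 ≤ y k ∧ y k < 1 / 2 := by
      intro k hk
      simp only [y, if_pos hk]
      by_cases h : bcol (m k) t = true
      · rw [if_pos h]
        exact ⟨Int.fract_nonneg _, (hfr _).1 h⟩
      · rw [if_neg h]
        exact ⟨Int.fract_nonneg _, (hfr _).2 (by simpa using h)⟩
    have hyq : ∃ j : ℤ, y (ρ k) - y k = m (ρ k) - m k - j := by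
      simp only [y, if_pos hk, if_pos hρk, hcol]
      by_cases h : bcol (m k) t = true
      · rw [if_pos h, if_pos h]
        refine ⟨⌊m (ρ k) - t⌋ - ⌊m k - t⌋, ?_⟩
        simp only [Int.fract]
        push_cast
        ring
      · rw [if_neg h, if_neg h]
        refine ⟨⌊m (ρ k) - t - 1 / 2⌋ - ⌊m k - t - 1 / 2⌋, ?_⟩
        simp only [Int.fract]
        push_cast
        ring
    obtain ⟨j, hj⟩ := hyq
    have hdk := abs_le.1 (hd k hk)
    have h1 := hyb k hk
    have h2 := hyb (ρ k) hρk
    have h3 : d k - (y (ρ k) - y k) = ((j - q : ℤ) : ℝ) := by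
      rw [hj, hq]; push_cast; ring
    have h4 : |((j - q : ℤ) : ℝ)| < 1 := by
      rw [← h3, abs_lt]
      constructor <;> linarith
    have h5 : (j - q : ℤ) = 0 := by
      have : |(j - q : ℤ)| < 1 := by exact_mod_cast h4
      exact Int.abs_lt_one_iff.1 this
    rw [h5] at h3
    push_cast at h3
    linarith
  rw [Finset.sum_congr rfl (g := fun k => y (ρ k) - y k)
    (fun k hk => key k (mem_filter.1 hk).2)]
  have hyb0 : y b = 0 := by simp [y]
  have e1 : ∑ k ∈ univ.filter (fun k => k ≠ b), (y (ρ k) - y k) = ∑ k, (y (ρ k) - y k) := by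
    rw [← Finset.sum_filter_add_sum_filter_not univ (fun k => k ≠ b) (fun k => y (ρ k) - y k)]
    have : ∑ k ∈ univ.filter (fun k => ¬ k ≠ b), (y (ρ k) - y k) = 0 := by
      apply Finset.sum_eq_zero
      intro k hk
      have : k = b := by simpa using (mem_filter.1 hk).2
      rw [this, hρ, sub_self]
    rw [this, add_zero]
  rw [e1, Finset.sum_sub_distrib, Equiv.sum_comp ρ y, sub_self]

/-- **Static end for `K_n`, `n = 2p`.** -/
theorem loop_static {p : ℕ} (hp : 3 ≤ p) (hV : Fintype.card V = 2 * p)
    (ρ : V → Equiv.Perm V) (hρ : ∀ b, ρ b b = b)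
    (hcyc : ∀ b k k', k ≠ b → k' ≠ b → (ρ b).SameCycle k k')
    (P M D : V → V → V → ℝ)
    (hPM : ∀ z b k, k ≠ b → P z b k = M z b (ρ b k))
    (hD : ∀ z b k, k ≠ b → ∃ q : ℤ, P z b k = M z b k + D z b k + ((p : ℝ) - 1) * q)
    (hD1 : ∀ b k, k ≠ b → ∑ z, |D z b k| ≤ 1)
    (hW : ∀ z, ∑ k ∈ univ.filter (fun k => k ≠ z), D z z k ≠ 0)
    (cr : V → V → ℝ)
    (hcrP : ∀ b k, k ≠ b → ∃ q : V → ℤ,
      ∑ z, |P z b k - P z k b - ((p : ℝ) - 1) / 2 - ((p : ℝ) - 1) * q z| ≤ cr b k)
    (hcrM : ∀ b k, k ≠ b → ∃ q : V → ℤ,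
      ∑ z, |M z b k - M z k b - ((p : ℝ) - 1) / 2 - ((p : ℝ) - 1) * q z| ≤ cr b k) :
    2 * (p : ℝ) * (p - 1) ^ 2 * (p - 2) ≤
      ∑ b, ∑ k ∈ univ.filter (fun k => k ≠ b), cr b k := by
  classical
  have hp' : (3 : ℝ) ≤ p := by exact_mod_cast hp
  set w : ℝ := (p : ℝ) - 1 with hw
  have hw2 : 2 ≤ w := by linarith
  have hw0 : 0 < w := by linarith
  -- choose the integers
  have hD' : ∀ z b k, ∃ q : ℤ, k ≠ b → P z b k = M z b k + D z b k + w * q := by
    intro z b k
    by_cases h : k ≠ b
    · obtain ⟨q, hq⟩ := hD z b k h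
      exact ⟨q, fun _ => hq⟩
    · exact ⟨0, fun h' => absurd h' h⟩
  choose qD hqD using hD'
  have hP' : ∀ b k, ∃ q : V → ℤ, k ≠ b →
      ∑ z, |P z b k - P z k b - w / 2 - w * q z| ≤ cr b k := by
    intro b k
    by_cases h : k ≠ b
    · obtain ⟨q, hq⟩ := hcrP b k h
      exact ⟨q, fun _ => hq⟩
    · exact ⟨0, fun h' => absurd h' h⟩
  choose qP hqP using hP'
  have hM' : ∀ b k, ∃ q : V → ℤ, k ≠ b →
      ∑ z, |M z b k - M z k b - w / 2 - w * q z| ≤ cr b k := by
    intro b k
    by_cases h : k ≠ b
    · obtain ⟨q, hq⟩ := hcrM b k h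
      exact ⟨q, fun _ => hq⟩
    · exact ⟨0, fun h' => absurd h' h⟩
  choose qM hqM using hM'
  -- the three integrands
  let I1 : V → V → V → ℝ → ℝ := fun z b k t =>
    |((col (P z b k / w) t : ℤ) : ℝ) - ((col (P z k b / w + 1 / 2 + qP b k z) t : ℤ) : ℝ)|
  let I2 : V → V → V → ℝ → ℝ := fun z b k t =>
    |((col (M z b k / w) t : ℤ) : ℝ) - ((col (M z k b / w + 1 / 2 + qM b k z) t : ℤ) : ℝ)|
  let I3 : V → V → V → ℝ → ℝ := fun z b k t =>
    |((col (M z b k / w + D z b k / w) t : ℤ) : ℝ) - ((col (M z b k / w) t : ℤ) : ℝ)|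
  let S : V → Finset V := fun b => univ.filter (fun k => k ≠ b)
  have hpt : ∀ z t, 4 * ((p : ℝ) * w + 1) ≤
      ∑ b, ∑ k ∈ S b, (I1 z b k t + I2 z b k t + 2 * w * I3 z b k t) := by
    intro z t
    let Pc : V → V → Bool := fun b k => bcol (P z b k / w) t
    let Mc : V → V → Bool := fun b k => bcol (M z b k / w) t
    have hword := fun b => loop_word (ρ b) b (hρ b) (hcyc b) Pc Mc
      (fun k hk => by simp only [Pc, Mc, hPM z b k hk])
    have hne : ∃ b k, flp Pc Mc b k = 1 := by
      have hdz : ∀ k, k ≠ z → |D z z k / w| ≤ 1 / 2 := by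
        intro k hk
        have h1 : |D z z k| ≤ ∑ x, |D x z k| :=
          Finset.single_le_sum (f := fun x => |D x z k|) (fun _ _ => abs_nonneg _) (mem_univ z)
        have h2 := h1.trans (hD1 z k hk)
        rw [abs_div, abs_of_pos hw0, div_le_iff₀ hw0]
        linarith
      obtain ⟨k, hk, hk'⟩ := forced (ρ z) z (hρ z) (fun k => M z z k / w) (fun k => D z z k / w)
        hdz (by
          intro k hk
          refine ⟨qD z z k, ?_⟩
          rw [← hPM z z k hk, hqD z z k hk]
          field_simp) (by
          rw [← Finset.sum_div]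
          exact div_ne_zero (hW z) hw0.ne') t
      refine ⟨z, k, ?_⟩
      unfold flp
      rw [if_pos]
      refine ⟨fun h => hk h.symm, ?_⟩
      simp only [Pc, Mc]
      rw [hPM z z k hk]
      exact hk'
    have hcount := loop_count (p := p) (by omega) hV Pc Mc (fun b => (hword b).1)
      (fun b => (hword b).2) hne
    have hcoi : ∀ b k, k ≠ b → (coi Pc Mc b k : ℝ) ≤ I1 z b k t + I2 z b k t := by
      intro b k hk
      unfold coi
      rw [if_pos (fun h => hk h.symm)]
      push_cast
      apply add_le_add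
      · split_ifs with h
        · have := bcol_eq_le (qP b k z) h
          simpa [I1] using this
        · simpa using abs_nonneg _
      · split_ifs with h
        · have := bcol_eq_le (qM b k z) h
          simpa [I2] using this
        · simpa using abs_nonneg _
    have hflp : ∀ b k, k ≠ b → (flp Pc Mc b k : ℝ) ≤ I3 z b k t := by
      intro b k hk
      unfold flp
      split_ifs with h
      · have h1 : bcol (M z b k / w + D z b k / w) t ≠ bcol (M z b k / w) t := by
          have h2 := h.2
          simp only [Pc, Mc] at h2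
          have e : P z b k / w = M z b k / w + D z b k / w + (qD z b k : ℝ) := by
            rw [hqD z b k hk]; field_simp
          rw [e, bcol_add_int] at h2
          exact h2
        have := bcol_ne_le h1
        simpa [I3] using this
      · simpa using abs_nonneg _
    have hcoi0 : ∀ b, ∑ k, coi Pc Mc b k = ∑ k ∈ S b, coi Pc Mc b k := by
      intro b
      symm
      apply Finset.sum_subset (Finset.subset_univ _)
      intro k _ hk
      have : k = b := by simpa [S] using hk
      subst this
      simp [coi]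
    have hflp0 : ∀ b, ∑ k, flp Pc Mc b k = ∑ k ∈ S b, flp Pc Mc b k := by
      intro b
      symm
      apply Finset.sum_subset (Finset.subset_univ _)
      intro k _ hk
      have : k = b := by simpa [S] using hk
      subst this
      simp [flp]
    rw [Finset.sum_congr rfl fun b _ => hcoi0 b, Finset.sum_congr rfl fun b _ => hflp0 b]
      at hcount
    have hcount' : 4 * ((p : ℝ) * (p - 1) + 1) ≤
        ∑ b, ∑ k ∈ S b, (coi Pc Mc b k : ℝ) +
        2 * ((p : ℝ) - 1) * ∑ b, ∑ k ∈ S b, (flp Pc Mc b k : ℝ) := by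
      exact_mod_cast hcount
    refine hcount'.trans ?_
    rw [Finset.mul_sum, ← Finset.sum_add_distrib]
    apply Finset.sum_le_sum
    intro b _
    rw [Finset.mul_sum, ← Finset.sum_add_distrib]
    apply Finset.sum_le_sum
    intro k hk
    have hk' : k ≠ b := by simpa [S] using hk
    have h1 := hcoi b k hk'
    have h2 := hflp b k hk'
    have h3 : 2 * ((p : ℝ) - 1) * (flp Pc Mc b k : ℝ) ≤ 2 * w * I3 z b k t := by
      rw [hw]
      exact mul_le_mul_of_nonneg_left h2 (by linarith)
    linarith
  -- integrate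
  have hi1 : ∀ z b k, IntervalIntegrable (I1 z b k) volume 0 1 := fun z b k =>
    ((intervalIntegrable_col _ 0 1).sub (intervalIntegrable_col _ 0 1)).abs
  have hi2 : ∀ z b k, IntervalIntegrable (I2 z b k) volume 0 1 := fun z b k =>
    ((intervalIntegrable_col _ 0 1).sub (intervalIntegrable_col _ 0 1)).abs
  have hi3 : ∀ z b k, IntervalIntegrable (I3 z b k) volume 0 1 := fun z b k =>
    ((intervalIntegrable_col _ 0 1).sub (intervalIntegrable_col _ 0 1)).abs
  have hi : ∀ z b k, IntervalIntegrable
      (fun t => I1 z b k t + I2 z b k t + 2 * w * I3 z b k t) volume 0 1 := fun z b k =>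
    ((hi1 z b k).add (hi2 z b k)).add ((hi3 z b k).const_mul _)
  have hval : ∀ z b k, ∫ t in (0:ℝ)..1, (I1 z b k t + I2 z b k t + 2 * w * I3 z b k t) =
      2 / w * (|P z b k - P z k b - w / 2 - w * qP b k z| +
        |M z b k - M z k b - w / 2 - w * qM b k z| + 2 * w * |D z b k|) := by
    intro z b k
    rw [intervalIntegral.integral_add ((hi1 z b k).add (hi2 z b k)) ((hi3 z b k).const_mul _),
      intervalIntegral.integral_add (hi1 z b k) (hi2 z b k),
      intervalIntegral.integral_const_mul]
    simp only [I1, I2, I3]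
    rw [integral_abs_col_sub, integral_abs_col_sub, integral_abs_col_sub]
    have e1 : P z b k / w - (P z k b / w + 1 / 2 + (qP b k z : ℝ)) =
        (P z b k - P z k b - w / 2 - w * qP b k z) / w := by field_simp; ring
    have e2 : M z b k / w - (M z k b / w + 1 / 2 + (qM b k z : ℝ)) =
        (M z b k - M z k b - w / 2 - w * qM b k z) / w := by field_simp; ring
    have e3 : M z b k / w + D z b k / w - M z b k / w = D z b k / w := by ring
    rw [e1, e2, e3, abs_div, abs_div, abs_div, abs_of_pos hw0]
    field_simp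
  have hz : ∀ z, 4 * ((p : ℝ) * w + 1) ≤ ∑ b, ∑ k ∈ S b,
      2 / w * (|P z b k - P z k b - w / 2 - w * qP b k z| +
        |M z b k - M z k b - w / 2 - w * qM b k z| + 2 * w * |D z b k|) := by
    intro z
    calc 4 * ((p : ℝ) * w + 1) = ∫ _t in (0:ℝ)..1, 4 * ((p : ℝ) * w + 1) := by simp
      _ ≤ ∫ t in (0:ℝ)..1, ∑ b, ∑ k ∈ S b, (I1 z b k t + I2 z b k t + 2 * w * I3 z b k t) := by
          apply intervalIntegral.integral_mono (by norm_num) (by simp)
          · have h8 := IntervalIntegrable.sum (μ := volume) (a := (0:ℝ)) (b := 1) univ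
              (fun b _ => IntervalIntegrable.sum (μ := volume) (a := (0:ℝ)) (b := 1) (S b)
                (fun k _ => hi z b k))
            have h9 : (fun t => ∑ b, ∑ k ∈ S b,
                (I1 z b k t + I2 z b k t + 2 * w * I3 z b k t)) =
                ∑ b, ∑ k ∈ S b, fun t => (I1 z b k t + I2 z b k t + 2 * w * I3 z b k t) := by
              funext t
              simp only [Finset.sum_apply]
            rw [h9]
            exact h8
          · intro t
            exact hpt z t
      _ = ∑ b, ∫ t in (0:ℝ)..1, ∑ k ∈ S b,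
            (I1 z b k t + I2 z b k t + 2 * w * I3 z b k t) := by
          apply intervalIntegral.integral_finsetSum
          intro b _
          have h8 := IntervalIntegrable.sum (μ := volume) (a := (0:ℝ)) (b := 1) (S b)
            (fun k _ => hi z b k)
          have h9 : (fun t => ∑ k ∈ S b, (I1 z b k t + I2 z b k t + 2 * w * I3 z b k t)) =
              ∑ k ∈ S b, fun t => (I1 z b k t + I2 z b k t + 2 * w * I3 z b k t) := by
            funext t
            simp only [Finset.sum_apply]
          rw [h9]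
          exact h8
      _ = _ := by
          apply Finset.sum_congr rfl
          intro b _
          rw [intervalIntegral.integral_finsetSum (fun k _ => hi z b k)]
          apply Finset.sum_congr rfl
          intro k _
          exact hval z b k
  -- sum over z
  have hsum := Finset.sum_le_sum (s := (univ : Finset V)) fun z _ => hz z
  rw [Finset.sum_const, card_univ, hV, nsmul_eq_mul] at hsum
  have hswap : ∑ z, ∑ b, ∑ k ∈ S b,
      2 / w * (|P z b k - P z k b - w / 2 - w * qP b k z| +
        |M z b k - M z k b - w / 2 - w * qM b k z| + 2 * w * |D z b k|) =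
      ∑ b, ∑ k ∈ S b, ∑ z, 2 / w * (|P z b k - P z k b - w / 2 - w * qP b k z| +
        |M z b k - M z k b - w / 2 - w * qM b k z| + 2 * w * |D z b k|) := by
    rw [Finset.sum_comm]
    apply Finset.sum_congr rfl
    intro b _
    rw [Finset.sum_comm]
  rw [hswap] at hsum
  have hle : ∑ b, ∑ k ∈ S b, ∑ z, 2 / w * (|P z b k - P z k b - w / 2 - w * qP b k z| +
        |M z b k - M z k b - w / 2 - w * qM b k z| + 2 * w * |D z b k|) ≤
      ∑ b, ∑ k ∈ S b, 2 / w * (2 * cr b k + 2 * w) := by
    apply Finset.sum_le_sum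
    intro b _
    apply Finset.sum_le_sum
    intro k hk
    have hk' : k ≠ b := by simpa [S] using hk
    rw [← Finset.mul_sum]
    apply mul_le_mul_of_nonneg_left _ (by positivity)
    rw [Finset.sum_add_distrib, Finset.sum_add_distrib, ← Finset.mul_sum]
    have h1 := hqP b k hk'
    have h2 := hqM b k hk'
    have h3 := hD1 b k hk'
    have h4 : 2 * w * ∑ z, |D z b k| ≤ 2 * w * 1 := mul_le_mul_of_nonneg_left h3 (by linarith)
    linarith
  have hcard : ∀ b : V, ((S b).card : ℝ) = 2 * p - 1 := by
    intro b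
    have h1 : (S b) = univ.erase b := by ext k; simp [S]
    rw [h1, Finset.card_erase_of_mem (mem_univ b), card_univ, hV,
      Nat.cast_sub (by omega)]
    push_cast
    ring
  have hfin : ∑ b, ∑ k ∈ S b, 2 / w * (2 * cr b k + 2 * w) =
      4 / w * ∑ b, ∑ k ∈ S b, cr b k + 4 * (2 * p * (2 * p - 1)) := by
    have h1 : ∀ b : V, ∑ k ∈ S b, 2 / w * (2 * cr b k + 2 * w) =
        4 / w * ∑ k ∈ S b, cr b k + 4 * (2 * p - 1) := by
      intro b
      have h2 : ∀ k ∈ S b, 2 / w * (2 * cr b k + 2 * w) = 4 / w * cr b k + 4 := by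
        intro k _
        field_simp
        ring
      rw [Finset.sum_congr rfl h2, Finset.sum_add_distrib, ← Finset.mul_sum, Finset.sum_const,
        nsmul_eq_mul, hcard b]
      ring
    rw [Finset.sum_congr rfl fun b _ => h1 b, Finset.sum_add_distrib, ← Finset.mul_sum,
      Finset.sum_const, card_univ, hV, nsmul_eq_mul]
    push_cast
    ring
  rw [hfin] at hle
  have hall := hsum.trans hle
  set X : ℝ := ∑ b, ∑ k ∈ S b, cr b k with hX
  have h1 : w * (((2 * p : ℕ) : ℝ) * (4 * ((p : ℝ) * w + 1))) ≤
      w * (4 / w * X + 4 * (2 * p * (2 * p - 1))) := mul_le_mul_of_nonneg_left hall hw0.le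
  have h2 : w * (4 / w * X + 4 * (2 * p * (2 * p - 1))) =
      4 * X + 8 * w * p * (2 * p - 1) := by
    field_simp
    ring
  rw [h2] at h1
  push_cast at h1
  have h3 : (p : ℝ) = w + 1 := by rw [hw]; ring
  have h4 : 2 * (p : ℝ) * w ^ 2 * (p - 2) ≤ X := by
    rw [h3] at h1 ⊢
    nlinarith
  exact h4

end Vale.Agent.P040.H252
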